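import Vale.Agent.P281.H964.S4a

/-!
# P281, block S4 (helper964): the arithmetic of the orbifold base
-/

open Set
open scoped ENNReal

noncomputable section

namespace Vale.Agent.P281.H964

/-- The values `k v`, `k ∈ ℕ`, `v` in a finite set, are well ordered. -/
theorem isWF_val {V : Set ℝ≥0∞} (hV : V.Finite) {A : Set ℝ≥0∞}
    (hA : ∀ a ∈ A, ∃ (k : ℕ), ∃ v ∈ V, a = k * v) : A.IsWF := by
  have h1 : (⋃ v ∈ hV.toFinset, range (fun k : ℕ => (k : ℝ≥0∞) * v)).IsPWO := by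
    rw [Finset.isPWO_bUnion]
    intro v _
    rw [← image_univ]
    have h2 : (univ : Set ℕ).IsPWO := (Set.isWF_univ_iff.mpr inferInstance).isPWO
    exact h2.image_of_monotone fun a b hab => by
      gcongr
  refine (h1.mono ?_).isWF
  intro a ha
  obtain ⟨k, v, hv, rfl⟩ := hA a ha
  exact mem_iUnion₂.mpr ⟨v, hV.mem_toFinset.mpr hv, k, rfl⟩

/-- The infimum is attained. -/
theorem iInf_attained {ι : Type} {P : ι → Prop} {k : ι → ℕ} {δ : ι → ℝ}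
    (hδ : (range δ).Finite) :
    (∀ i, ¬ P i) ∨ ∃ i, P i ∧ (⨅ (i : ι) (_ : P i), (k i : ℝ≥0∞) *
      (1 - ENNReal.ofReal (δ i))⁻¹) = (k i : ℝ≥0∞) * (1 - ENNReal.ofReal (δ i))⁻¹ := by
  by_cases hP : ∀ i, ¬ P i
  · exact Or.inl hP
  right
  push Not at hP
  obtain ⟨i0, hi0⟩ := hP
  obtain ⟨A, hAd⟩ : ∃ A : Set ℝ≥0∞, A = {a | ∃ i, P i ∧ a = (k i : ℝ≥0∞) *
    (1 - ENNReal.ofReal (δ i))⁻¹} := ⟨_, rfl⟩
  have hWF : A.IsWF := isWF_val (V := (fun x => (1 - ENNReal.ofReal x)⁻¹) '' range δ)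
    (hδ.image _) (by
      rintro a ha
      rw [hAd] at ha
      obtain ⟨i, -, rfl⟩ := ha
      exact ⟨k i, _, ⟨_, ⟨i, rfl⟩, rfl⟩, rfl⟩)
  have hne : A.Nonempty := ⟨_, by rw [hAd]; exact ⟨i0, hi0, rfl⟩⟩
  have hmem := hWF.min_mem hne
  have hle : ∀ a ∈ A, hWF.min hne ≤ a := fun a ha => hWF.min_le hne ha
  generalize hWF.min hne = m at hmem hle
  rw [hAd] at hmem
  obtain ⟨i, hi, hm⟩ := hmem
  refine ⟨i, hi, le_antisymm (iInf₂_le i hi) ?_⟩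
  rw [← hm]
  refine le_iInf₂ fun j hj => hle _ ?_
  rw [hAd]
  exact ⟨j, hj, rfl⟩

/-- The coefficient of the orbifold base is rational. -/
theorem rat_coef (k : ℕ) {δ : ℝ} {q : ℚ} (hq : δ = q) (h0 : 0 ≤ q) (h1 : q ≤ 1) :
    ∃ r : ℚ, (1 - ((k : ℝ≥0∞) * (1 - ENNReal.ofReal δ)⁻¹)⁻¹).toReal = r := by
  have hδ0 : 0 ≤ δ := by rw [hq]; exact_mod_cast h0
  have hδ1 : δ ≤ 1 := by rw [hq]; exact_mod_cast h1
  rcases Nat.eq_zero_or_pos k with rfl | hk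
  · refine ⟨0, ?_⟩
    simp
  · have hk0 : (k : ℝ≥0∞) ≠ 0 := by exact_mod_cast hk.ne'
    have e1 : (1 : ℝ≥0∞) - ENNReal.ofReal δ = ENNReal.ofReal (1 - δ) := by
      rw [ENNReal.ofReal_sub _ hδ0, ENNReal.ofReal_one]
    have e2 : ((k : ℝ≥0∞) * (1 - ENNReal.ofReal δ)⁻¹)⁻¹ = ENNReal.ofReal ((1 - δ) / k) := by
      rw [ENNReal.mul_inv (Or.inl hk0) (Or.inl (ENNReal.natCast_ne_top k)), inv_inv, e1,
        ENNReal.ofReal_div_of_pos (by exact_mod_cast hk), ENNReal.ofReal_natCast, mul_comm,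
        div_eq_mul_inv]
    rw [e2]
    have hk1 : (1 : ℝ) ≤ k := by exact_mod_cast hk
    have h3 : (1 - δ) / k ≤ 1 := by
      rw [div_le_one (by linarith)]
      linarith
    have h4 : 0 ≤ (1 - δ) / k := div_nonneg (by linarith) (by linarith)
    have e3 : (1 : ℝ≥0∞) - ENNReal.ofReal ((1 - δ) / k) = ENNReal.ofReal (1 - (1 - δ) / k) := by
      rw [ENNReal.ofReal_sub _ h4, ENNReal.ofReal_one]
    rw [e3, ENNReal.toReal_ofReal (by linarith)]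
    exact ⟨1 - (1 - q) / k, by rw [hq]; push_cast; ring⟩

theorem coef_nonneg (m : ℝ≥0∞) : 0 ≤ (1 - m⁻¹).toReal := ENNReal.toReal_nonneg

theorem coef_le_one (m : ℝ≥0∞) : (1 - m⁻¹).toReal ≤ 1 := by
  have h : (1 - m⁻¹) ≤ 1 := tsub_le_self
  calc _ ≤ (1 : ℝ≥0∞).toReal := ENNReal.toReal_mono ENNReal.one_ne_top h
    _ = 1 := by simp

/-- The coefficient is zero if the multiplicity is at most one. -/
theorem coef_zero {m : ℝ≥0∞} (h : m ≤ 1) : (1 - m⁻¹).toReal = 0 := by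
  rw [tsub_eq_zero_of_le (ENNReal.one_le_inv.mpr h), ENNReal.toReal_zero]

/-- The inequality of the orbifold morphisms. -/
theorem coef_le {m : ℝ≥0∞} {k k' : ℕ} {δ : ℝ} (hk : 0 < k) (hk' : k' ≤ k) (h0 : 0 ≤ δ) (h1 : δ ≤ 1)
    (hm : m ≤ (k' : ℝ≥0∞) * (1 - ENNReal.ofReal δ)⁻¹) (hne : (1 - m⁻¹).toReal ≠ 0) :
    1 - δ ≤ k * (1 - (1 - m⁻¹).toReal) := by
  have hlt : m⁻¹ < 1 := by
    by_contra h
    push Not at h
    apply hne
    rw [tsub_eq_zero_of_le h, ENNReal.toReal_zero]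
  have hmt : m⁻¹ ≠ ⊤ := (hlt.trans ENNReal.one_lt_top).ne
  have e0 : 1 - (1 - m⁻¹).toReal = (m⁻¹).toReal := by
    rw [ENNReal.toReal_sub_of_le hlt.le ENNReal.one_ne_top]
    simp
  rw [e0]
  have hm2 : m ≤ (k : ℝ≥0∞) * (1 - ENNReal.ofReal δ)⁻¹ := hm.trans (by gcongr)
  have hk0 : (k : ℝ≥0∞) ≠ 0 := by exact_mod_cast hk.ne'
  have e1 : (1 : ℝ≥0∞) - ENNReal.ofReal δ = ENNReal.ofReal (1 - δ) := by
    rw [ENNReal.ofReal_sub _ h0, ENNReal.ofReal_one]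
  have e2 : ((k : ℝ≥0∞) * (1 - ENNReal.ofReal δ)⁻¹)⁻¹ = ENNReal.ofReal ((1 - δ) / k) := by
    rw [ENNReal.mul_inv (Or.inl hk0) (Or.inl (ENNReal.natCast_ne_top k)), inv_inv, e1,
      ENNReal.ofReal_div_of_pos (by exact_mod_cast hk), ENNReal.ofReal_natCast, mul_comm,
      div_eq_mul_inv]
  have h3 : ENNReal.ofReal ((1 - δ) / k) ≤ m⁻¹ := by
    rw [← e2]
    exact ENNReal.inv_le_inv.mpr hm2
  have hkr : (0 : ℝ) < k := by exact_mod_cast hk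
  have h4 : (1 - δ) / k ≤ (m⁻¹).toReal := by
    have h5 := ENNReal.toReal_mono hmt h3
    rwa [ENNReal.toReal_ofReal (div_nonneg (by linarith) hkr.le)] at h5
  rw [div_le_iff₀ hkr] at h4
  linarith

end Vale.Agent.P281.H964
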