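import Vale.Agent.P281.H964.S4b

/-!
# P281, Q1 for surfaces, block S4 (helper964): the orbifold base of a fibration of a surface
-/

open Set Filter Metric Vale.Agent.P281 Vale.Agent.P281.H713 Vale.Agent.P281.H64
open scoped Topology ContDiff Manifold ENNReal

set_option linter.unusedSectionVars false

noncomputable section

namespace Vale.Agent.P281.H964

section

variable {X Y : Type} [TopologicalSpace X] [ChartedSpace (Cm 2) X]
  [IsManifold 𝓘(ℂ, Cm 2) ω X] [TopologicalSpace Y] [T2Space Y]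
  [ChartedSpace (Cm 1) Y] [IsManifold 𝓘(ℂ, Cm 1) ω Y] {f : X → Y}

/-- The set of the multiplicities along `D`. -/
def mulSet (f : X → Y) (D : Set X) (G : Set Y) : Set ℕ :=
  {k : ℕ | ∃ x ∈ D, ∃ e g w, J.IsLocalEq (Cm 2) D e x ∧ J.IsLocalEq (Cm 1) G g (f x) ∧
    J.HolAt (Cm 2) w x ∧ w x ≠ 0 ∧ ∀ᶠ z in 𝓝 x, g (f z) = e z ^ k * w z}

/-- The infimum of the multiplicities. -/
def mm (f : X → Y) (Δ : Set X → ℝ) (G : Set Y) : ℝ≥0∞ :=
  ⨅ (D : Set X) (_ : J.IsPrime (Cm 2) D ∧ closure (f '' D) = G),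
    ((sInf (mulSet f D G) : ℕ) : ℝ≥0∞) * (1 - ENNReal.ofReal (Δ D))⁻¹

theorem base_of {Δ : Set X → ℝ} {G : Set Y} (hG : J.IsPrime (Cm 1) G) :
    TZ.S.base (Cm 2) (Cm 1) f Δ G = (1 - (mm f Δ G)⁻¹).toReal := by
  rw [TZ.S.base, if_pos hG]
  rfl

theorem base_not {Δ : Set X → ℝ} {G : Set Y} (hG : ¬ J.IsPrime (Cm 1) G) :
    TZ.S.base (Cm 2) (Cm 1) f Δ G = 0 := by
  rw [TZ.S.base, if_neg hG]

theorem isPrime_of {Δ : Set X → ℝ} {G : Set Y} (hG : TZ.S.base (Cm 2) (Cm 1) f Δ G ≠ 0) :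
    J.IsPrime (Cm 1) G := by
  by_contra h
  exact hG (base_not h)

/-- The pull-back of a local equation of a point by a submersion. -/
theorem dif_comp (hf : ContMDiff 𝓘(ℂ, Cm 2) 𝓘(ℂ, Cm 1) ω f) {g : Y → ℂ} {x : X}
    (hg : J.HolAt (Cm 1) g (f x)) (hd : J.dif (Cm 1) g (f x) ≠ 0)
    (hs : Function.Surjective (mfderiv 𝓘(ℂ, Cm 2) 𝓘(ℂ, Cm 1) f x)) :
    J.dif (Cm 2) (g ∘ f) x ≠ 0 := by
  have h1 : J.dif (Cm 2) (g ∘ f) x =
      (J.dif (Cm 1) g (f x)).comp (mfderiv 𝓘(ℂ, Cm 2) 𝓘(ℂ, Cm 1) f x) :=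
    mfderiv_comp x (hg.mdifferentiableAt (by simp)) ((hf x).mdifferentiableAt (by simp))
  intro h
  apply hd
  ext v
  obtain ⟨u, hu⟩ := hs v
  have h2 := congrArg (fun L : Cm 2 →L[ℂ] ℂ => L u) (h1.symm.trans h)
  have h3 : J.dif (Cm 1) g (f x) (mfderiv 𝓘(ℂ, Cm 2) 𝓘(ℂ, Cm 1) f x u) = 0 := h2
  rw [hu] at h3
  exact h3

theorem holAt_comp (hf : ContMDiff 𝓘(ℂ, Cm 2) 𝓘(ℂ, Cm 1) ω f) {g : Y → ℂ} {x : X}
    (hg : J.HolAt (Cm 1) g (f x)) : J.HolAt (Cm 2) (g ∘ f) x :=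
  ContMDiffAt.comp x hg (hf x)

/-- The local equation of a smooth fibre. -/
theorem isLocalEq_fibre (hf : ContMDiff 𝓘(ℂ, Cm 2) 𝓘(ℂ, Cm 1) ω f) {y : Y} {g : Y → ℂ}
    (hg : J.IsLocalEq (Cm 1) {y} g y)
    (hs : ∀ x, f x = y → Function.Surjective (mfderiv 𝓘(ℂ, Cm 2) 𝓘(ℂ, Cm 1) f x)) {x : X}
    (hx : f x = y) : J.IsLocalEq (Cm 2) (f ⁻¹' {y}) (g ∘ f) x := by
  have hd := dif_ne hg
  obtain ⟨V, hV, hyV, hol, hiff, -⟩ := hg
  refine ⟨f ⁻¹' V, hV.preimage hf.continuous, by rw [mem_preimage, hx]; exact hyV,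
    fun z hz => holAt_comp hf (hol _ hz), fun z hz => ?_, ?_⟩
  · exact hiff (f z) hz
  · rintro z ⟨hz, -⟩
    apply subset_closure
    have hz' : f z = y := hz
    refine ⟨hz, ?_⟩
    apply dif_comp hf
    · rw [hz']
      exact hol y hyV
    · rw [hz']
      exact hd
    · exact hs z hz'

/-- **A smooth connected fibre is a prime divisor.** -/
theorem isPrime_fibre (hf : ContMDiff 𝓘(ℂ, Cm 2) 𝓘(ℂ, Cm 1) ω f) {y : Y}
    (hc : IsConnected (f ⁻¹' {y})) {g : Y → ℂ} (hg : J.IsLocalEq (Cm 1) {y} g y)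
    (hs : ∀ x, f x = y → Function.Surjective (mfderiv 𝓘(ℂ, Cm 2) 𝓘(ℂ, Cm 1) f x)) :
    J.IsPrime (Cm 2) (f ⁻¹' {y}) := by
  have hcl : IsClosed (f ⁻¹' {y}) := isClosed_singleton.preimage hf.continuous
  refine ⟨hcl, fun x => ?_, ?_⟩
  · by_cases hx : f x = y
    · exact ⟨_, isLocalEq_fibre hf hg hs hx⟩
    · refine ⟨fun _ => 1, (f ⁻¹' {y})ᶜ, hcl.isOpen_compl, hx, fun z _ => ?_, fun z hz => ?_, ?_⟩
      · exact contMDiffAt_const
      · exact ⟨fun h => absurd h hz, fun h => absurd h one_ne_zero⟩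
      · rintro z ⟨h1, h2⟩
        exact absurd h1 h2
  · have e : {x | x ∈ f ⁻¹' {y} ∧ ∃ g, J.IsLocalEq (Cm 2) (f ⁻¹' {y}) g x ∧
        J.dif (Cm 2) g x ≠ 0} = f ⁻¹' {y} := by
      ext x
      constructor
      · exact fun h => h.1
      · intro hx
        have hx' : f x = y := hx
        refine ⟨hx, g ∘ f, isLocalEq_fibre hf hg hs hx', ?_⟩
        have hd := dif_ne hg
        obtain ⟨V, hV, hyV, hol, hiff, -⟩ := hg
        apply dif_comp hf
        · rw [hx']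
          exact hol y hyV
        · rw [hx']
          exact hd
        · exact hs x hx'
    rw [e]
    exact hc

/-- The coefficient of a point over which the fibre is smooth. -/
theorem base_smooth (hf : ContMDiff 𝓘(ℂ, Cm 2) 𝓘(ℂ, Cm 1) ω f) {Δ : Set X → ℝ} {y : Y}
    (hc : IsConnected (f ⁻¹' {y})) (hΔ : Δ (f ⁻¹' {y}) = 0)
    (hs : ∀ x, f x = y → Function.Surjective (mfderiv 𝓘(ℂ, Cm 2) 𝓘(ℂ, Cm 1) f x)) :
    TZ.S.base (Cm 2) (Cm 1) f Δ {y} = 0 := by
  by_cases hG : J.IsPrime (Cm 1) {y}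
  · rw [base_of hG]
    obtain ⟨y', hy', g, hg, -⟩ := prime_eq hG
    rw [← singleton_eq_singleton_iff.mp hy'] at hg
    apply coef_zero
    obtain ⟨x, hx⟩ := hc.nonempty
    have hx' : f x = y := hx
    have h1 : closure (f '' (f ⁻¹' {y})) = {y} := by
      have h2 : f '' (f ⁻¹' {y}) = {y} := by
        apply Subset.antisymm (image_preimage_subset f {y})
        rintro _ rfl
        exact ⟨x, hx, hx'⟩
      rw [h2, closure_singleton]
    refine le_trans (iInf₂_le (f ⁻¹' {y}) ⟨isPrime_fibre hf hc hg hs, h1⟩) ?_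
    rw [hΔ, ENNReal.ofReal_zero, tsub_zero, inv_one, mul_one]
    have h3 : sInf (mulSet f (f ⁻¹' {y}) {y}) ≤ 1 := by
      apply Nat.sInf_le
      refine ⟨x, hx, g ∘ f, g, fun _ => 1, isLocalEq_fibre hf hg hs hx', by rw [hx']; exact hg,
        contMDiffAt_const, one_ne_zero, Eventually.of_forall fun z => ?_⟩
      rw [pow_one, mul_one]
      rfl
    exact_mod_cast h3
  · exact base_not hG

end

open H511.Surf in
/-- **S4.** -/
theorem s4 (hI : IrrStmt) (h3 : S3Stmt) : S4Stmt := by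
  classical
  intro X Y _ _ _ _ _ _ _ _ _ _ f Δ hf hconn hΔ Γ hΓ
  subst hΓ
  obtain ⟨hfin, hpr, hrat, -⟩ := hΔ
  have hsurj : ∀ y, (f ⁻¹' {y}).Nonempty := fun y => (hconn y).nonempty
  have hΔ0 : ∀ D, 0 ≤ Δ D := fun D => by
    obtain ⟨q, hq, h0, -⟩ := hrat D
    rw [hq]
    exact_mod_cast h0
  have hΔ1 : ∀ D, Δ D ≤ 1 := fun D => by
    obtain ⟨q, hq, -, h1⟩ := hrat D
    rw [hq]
    exact_mod_cast h1
  refine ⟨?_, fun G hG => isPrime_of hG, ?_, ?_, ?_⟩
  · -- finiteness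
    obtain ⟨T, hT, hTS⟩ := h3 X Y f hf hconn
    have hP := hTS T Subset.rfl hT.isClosed
    have hinj : Function.Injective fun y : Y => f ⁻¹' {y} := by
      intro y y' h
      obtain ⟨x, hx⟩ := hsurj y
      have h1 : x ∈ f ⁻¹' {y'} := by
        have h2 : f ⁻¹' {y} = f ⁻¹' {y'} := h
        rw [← h2]
        exact hx
      have h3 : f x = y := hx
      have h4 : f x = y' := h1
      rw [← h3, h4]
    have hT' : {y : Y | Δ (f ⁻¹' {y}) ≠ 0}.Finite := hfin.preimage hinj.injOn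
    refine ((hT.union hT').image fun y => ({y} : Set Y)).subset ?_
    intro G hG
    obtain ⟨y, rfl, -⟩ := prime_eq (isPrime_of hG)
    refine ⟨y, ?_, rfl⟩
    by_contra hcon
    rw [mem_union, not_or] at hcon
    obtain ⟨h1, h2⟩ := hcon
    refine hG (base_smooth hf (hconn y) ?_ fun x hx => ?_)
    · by_contra h
      exact h2 h
    · exact hP.submersive x (by rw [hx]; exact h1)
  · -- rationality
    intro G
    by_cases hG : J.IsPrime (Cm 1) G
    · rw [base_of hG]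
      suffices h : ∃ r : ℚ, (1 - (mm f Δ G)⁻¹).toReal = r by
        obtain ⟨r, hr⟩ := h
        refine ⟨r, hr, ?_, ?_⟩
        · have := coef_nonneg (mm f Δ G)
          rw [hr] at this
          exact_mod_cast this
        · have := coef_le_one (mm f Δ G)
          rw [hr] at this
          exact_mod_cast this
      have hr : (range Δ).Finite := by
        refine ((hfin.image Δ).union (finite_singleton 0)).subset ?_
        rintro _ ⟨D, rfl⟩
        by_cases h : Δ D = 0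
        · right; exact h
        · left; exact ⟨D, h, rfl⟩
      rcases iInf_attained (P := fun D => J.IsPrime (Cm 2) D ∧ closure (f '' D) = G)
        (k := fun D => sInf (mulSet f D G)) (δ := Δ) hr with h | ⟨D, hD, h⟩
      · refine ⟨1, ?_⟩
        have e : mm f Δ G = ⊤ := by
          rw [mm]
          exact iInf₂_eq_top.mpr fun D hD => absurd hD (h D)
        rw [e]
        simp
      · obtain ⟨q, hq, h0, h1⟩ := hrat D
        have e : mm f Δ G = ((sInf (mulSet f D G) : ℕ) : ℝ≥0∞) *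
          (1 - ENNReal.ofReal (Δ D))⁻¹ := h
        rw [e]
        exact rat_coef _ hq h0 h1
    · exact ⟨0, by rw [base_not hG, Rat.cast_zero], le_rfl, zero_le_one⟩
  · -- normal crossings
    intro z G hG hz
    apply subset_closure
    refine ⟨⟨G, hG, hz⟩, Eventually.of_forall fun y g hg => ?_⟩
    have key : ∀ G', TZ.S.base (Cm 2) (Cm 1) f Δ G' ≠ 0 → y ∈ G' → G' = {y} := by
      intro G' h1 h2
      obtain ⟨y', h3, -⟩ := prime_eq (isPrime_of h1)
      rw [h3] at h2 ⊢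
      rw [mem_singleton_iff.mp h2]
    intro c
    by_cases hne : Nonempty {G' // TZ.S.base (Cm 2) (Cm 1) f Δ G' ≠ 0 ∧ y ∈ G'}
    · obtain ⟨⟨G₀, h1, h2⟩⟩ := hne
      have h3 := key G₀ h1 h2
      have h4 := hg G₀ h1 h2
      have h5 : J.dif (Cm 1) (g G₀) y ≠ 0 := by
        rw [h3] at h4 ⊢
        exact dif_ne h4
      have h6 : ∃ ξ, J.dif (Cm 1) (g G₀) y ξ ≠ 0 := by
        by_contra hcon
        push Not at hcon
        apply h5
        ext v
        exact hcon v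
      obtain ⟨ξ, hξ⟩ := h6
      refine ⟨(c ⟨G₀, h1, h2⟩ / J.dif (Cm 1) (g G₀) y ξ) • ξ, ?_⟩
      funext ⟨G', h7, h8⟩
      have h9 : G' = G₀ := (key G' h7 h8).trans h3.symm
      subst h9
      change J.dif (Cm 1) (g G') y (_ • ξ) = _
      rw [map_smul, smul_eq_mul, div_mul_cancel₀ _ hξ]
    · exact ⟨0, funext fun i => absurd ⟨i⟩ hne⟩
  · -- the morphism
    intro z G g e w k hG hg he hez hde hw hwz hk hgf
    have hGp := isPrime_of hG
    obtain ⟨V, hV, hzV, hol, hiff, hcl⟩ := hg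
    have h1 : g (f z) = 0 := by
      rw [hgf.self_of_nhds, hez, zero_pow hk.ne', zero_mul]
    have h2 : f z ∈ G := (hiff _ hzV).mpr h1
    have h3 : G = {f z} := by
      obtain ⟨y', h3, -⟩ := prime_eq hGp
      rw [h3] at h2 ⊢
      rw [mem_singleton_iff.mp h2]
    have h4 : ∀ᶠ x in 𝓝 z, f x = f z ↔ e x = 0 := by
      have h5 : ∀ᶠ x in 𝓝 z, f x ∈ V :=
        hf.continuous.continuousAt.eventually (hV.mem_nhds hzV)
      have h6 : ∀ᶠ x in 𝓝 z, w x ≠ 0 := ContinuousAt.eventually_ne hw.continuousAt hwz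
      filter_upwards [h5, h6, hgf] with x h7 h8 h9
      have h10 : f x ∈ G ↔ f x = f z := by rw [h3, mem_singleton_iff]
      rw [← h10, hiff _ h7, h9, mul_eq_zero, or_iff_left h8, pow_eq_zero_iff hk.ne']
    obtain ⟨D, hD, hDf, hDe⟩ := hI X Y f hf z e he hez hde h4
    have hzD : z ∈ D := by
      obtain ⟨V', -, h5, -, h6, -⟩ := hDe
      exact (h6 z h5).mpr hez
    have h5 : closure (f '' D) = G := by
      have h6 : f '' D = {f z} := by
        apply Subset.antisymm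
        · rintro _ ⟨x, hx, rfl⟩
          exact hDf hx
        · rintro _ rfl
          exact ⟨z, hzD, rfl⟩
      rw [h6, closure_singleton, h3]
    have h6 : sInf (mulSet f D G) ≤ k :=
      Nat.sInf_le ⟨z, hzD, e, g, w, hDe, ⟨V, hV, hzV, hol, hiff, hcl⟩, hw, hwz, hgf⟩
    have h7 : mm f Δ G ≤ ((sInf (mulSet f D G) : ℕ) : ℝ≥0∞) * (1 - ENNReal.ofReal (Δ D))⁻¹ :=
      iInf₂_le D ⟨hD, h5⟩
    rw [base_of hGp] at hG ⊢
    have h8 := coef_le hk h6 (hΔ0 D) (hΔ1 D) h7 hG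
    have h9 : Δ D ≤ ∑ᶠ (D : Set X) (_ : z ∈ D), Δ D := by
      have e1 : (∑ᶠ (_ : z ∈ D), Δ D) = Δ D := finsum_eq_if.trans (if_pos hzD)
      have h10 := single_le_finsum (f := fun D : Set X => ∑ᶠ (_ : z ∈ D), Δ D) D
        (hfin.subset fun D' hD' => by
          intro h
          apply hD'
          change (∑ᶠ (_ : z ∈ D'), Δ D') = 0
          rw [h]
          exact finsum_zero) (fun D' => by
          change 0 ≤ ∑ᶠ (_ : z ∈ D'), Δ D'
          rw [finsum_eq_if]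
          split_ifs
          · exact hΔ0 D'
          · exact le_rfl)
      exact e1.symm.le.trans h10
    linarith

end Vale.Agent.P281.H964
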