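import Vale.Agent.P281.H511.Surf.Spec

/-!
# P281, Q1 for surfaces, block S4 (helper964): prime divisors on curves, arithmetic of the orbifold base
-/

open Set Filter Metric Vale.Agent.P281 Vale.Agent.P281.H713 Vale.Agent.P281.H64
open scoped Topology ContDiff Manifold ENNReal

set_option linter.unusedSectionVars false

noncomputable section

namespace Vale.Agent.P281.H964

/-! ### Prime divisors of a curve -/

section curve

variable {Y : Type} [TopologicalSpace Y] [ChartedSpace (Cm 1) Y] [IsManifold 𝓘(ℂ, Cm 1) ω Y]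

theorem inj_of_ne {L : Cm 1 →L[ℂ] ℂ} (hL : L ≠ 0) : Function.Injective L := by
  rw [injective_iff_map_eq_zero]
  intro v hv
  by_contra hne
  apply hL
  have h0 : v 0 ≠ 0 := by
    intro h
    apply hne
    funext i
    rw [Subsingleton.elim i 0, h]
    rfl
  ext w
  have e : w = (w 0 / v 0) • v := by
    funext i
    rw [Subsingleton.elim i 0, Pi.smul_apply, smul_eq_mul, div_mul_cancel₀ _ h0]
  rw [e, map_smul, hv, smul_zero]
  rfl

/-- The zeros of a function with nonzero differential are isolated. -/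
theorem isolated {g : Y → ℂ} {y : Y} (hg : J.HolAt (Cm 1) g y)
    (hd : J.dif (Cm 1) g y ≠ 0) : ∀ᶠ x in 𝓝 y, g x = 0 → x = y := by
  have hm : MDifferentiableAt 𝓘(ℂ, Cm 1) 𝓘(ℂ, ℂ) g y := hg.mdifferentiableAt (by simp)
  obtain ⟨L, hL⟩ : ∃ L : Cm 1 →L[ℂ] ℂ, L = J.dif (Cm 1) g y := ⟨_, rfl⟩
  have h2 : HasFDerivAt (writtenInExtChartAt 𝓘(ℂ, Cm 1) 𝓘(ℂ, ℂ) y g) L
      (extChartAt 𝓘(ℂ, Cm 1) y y) := by
    have h1 : HasFDerivWithinAt (writtenInExtChartAt 𝓘(ℂ, Cm 1) 𝓘(ℂ, ℂ) y g) L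
        (range 𝓘(ℂ, Cm 1)) (extChartAt 𝓘(ℂ, Cm 1) y y) := by
      rw [hL]
      exact hm.hasMFDerivAt.2
    rwa [modelWithCornersSelf_coe, range_id, hasFDerivWithinAt_univ] at h1
  have hinj : ∃ C, AntilipschitzWith C L := by
    obtain ⟨C, -, hC⟩ := LinearMap.exists_antilipschitzWith (L : Cm 1 →ₗ[ℂ] ℂ)
      (LinearMap.ker_eq_bot.mpr (inj_of_ne (hL ▸ hd)))
    exact ⟨C, hC⟩
  have h3 := h2.eventually_ne hinj (c := 0)
  rw [eventually_nhdsWithin_iff] at h3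
  have h4 : ContinuousAt (extChartAt 𝓘(ℂ, Cm 1) y) y := continuousAt_extChartAt y
  have h5 : ∀ᶠ x in 𝓝 y, x ∈ (extChartAt 𝓘(ℂ, Cm 1) y).source :=
    (isOpen_extChartAt_source y).mem_nhds (mem_extChartAt_source y)
  filter_upwards [h4.eventually h3, h5] with x hx hxs hgx
  by_contra hne
  refine hx ?_ ?_
  · intro h
    exact hne ((extChartAt 𝓘(ℂ, Cm 1) y).injOn hxs (mem_extChartAt_source y) h)
  · change extChartAt 𝓘(ℂ, ℂ) (g y) (g ((extChartAt 𝓘(ℂ, Cm 1) y).symm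
      (extChartAt 𝓘(ℂ, Cm 1) y x))) = 0
    rw [(extChartAt 𝓘(ℂ, Cm 1) y).left_inv hxs, hgx]
    rfl

/-- **A prime divisor of a curve is a point.** -/
theorem prime_eq [T2Space Y] {G : Set Y} (hG : J.IsPrime (Cm 1) G) :
    ∃ y, G = {y} ∧ ∃ g, J.IsLocalEq (Cm 1) G g y ∧ J.dif (Cm 1) g y ≠ 0 := by
  obtain ⟨-, hloc, ⟨y, hyG, g, hg, hgd⟩, hconn⟩ := hG
  refine ⟨y, ?_, g, hg, hgd⟩
  obtain ⟨V, hV, hyV, hol, hiff, hcl0⟩ := hg
  obtain ⟨U, hU, hUo, hyU⟩ := eventually_nhds_iff.mp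
    ((isolated (hol y hyV) hgd).and (hV.mem_nhds hyV))
  have hiso : ∀ x ∈ U, x ∈ G → x = y := fun x hx hxG =>
    (hU x hx).1 ((hiff x (hU x hx).2).mp hxG)
  -- the smooth locus is `{y}`
  have hS : {x | x ∈ G ∧ ∃ g, J.IsLocalEq (Cm 1) G g x ∧ J.dif (Cm 1) g x ≠ 0} ⊆ {y} := by
    rcases isPreconnected_iff_subset_of_disjoint.mp hconn U {y}ᶜ hUo isOpen_compl_singleton
      (fun x _ => by
        by_cases h : x = y
        · left; rw [h]; exact hyU
        · right; exact h)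
      (by
        ext x
        simp only [mem_inter_iff, mem_ofPred_eq, mem_compl_iff, mem_singleton_iff, mem_empty_iff_false,
          iff_false]
        rintro ⟨⟨hxG, -⟩, hxU, hne⟩
        exact hne (hiso x hxU hxG)) with h | h
    · intro x hx
      exact hiso x (h hx) hx.1
    · exact absurd rfl (h ⟨hyG, g, ⟨V, hV, hyV, hol, hiff, hcl0⟩, hgd⟩)
  apply Set.Subset.antisymm
  · intro x hx
    obtain ⟨g', V', hV', hxV', hol', hiff', hcl⟩ := hloc x
    have h1 : x ∈ closure ({z | z ∈ G ∧ J.dif (Cm 1) g' z ≠ 0} ∩ V') :=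
      mem_closure_iff_nhds.mpr fun W hW => by
        have h2 := mem_closure_iff_nhds.mp (hcl ⟨hx, hxV'⟩) (W ∩ V')
          (inter_mem hW (hV'.mem_nhds hxV'))
        obtain ⟨z, ⟨h3, h4⟩, h5⟩ := h2
        exact ⟨z, h3, h5, h4⟩
    have h2 : ({z | z ∈ G ∧ J.dif (Cm 1) g' z ≠ 0} ∩ V') ⊆ {y} := by
      rintro z ⟨⟨h3, h4⟩, h5⟩
      exact hS ⟨h3, g', ⟨V', hV', h5, hol', hiff', hcl⟩, h4⟩
    have h3 := closure_mono h2 h1
    rwa [closure_singleton] at h3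
  · rintro x rfl
    exact hyG

/-- A local equation of a point of a curve has a nonzero differential. -/
theorem dif_ne {y : Y} [T2Space Y] {g : Y → ℂ} (hg : J.IsLocalEq (Cm 1) {y} g y) :
    J.dif (Cm 1) g y ≠ 0 := by
  obtain ⟨V, hV, hyV, -, -, hcl⟩ := hg
  have h1 := hcl ⟨rfl, hyV⟩
  obtain ⟨z, hz1, hz2⟩ : Set.Nonempty _ := closure_nonempty_iff.mp ⟨y, h1⟩
  have hz3 : z = y := hz1
  rwa [hz3] at hz2

end curve

end Vale.Agent.P281.H964
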